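import Vale.Agent.P090.Final

namespace Vale.Agent.Results.P090.NoBAP

theorem result : ∃ (M : Type) (_ : MetricSpace M) (o : M),
    (∃ c : ℝ, 0 < c ∧ ∀ x y : M, x ≠ y → c ≤ dist x y) ∧
      ¬ Vale.Agent.P090.HasBAP (Vale.Agent.P090.FreeSpace o) :=
  ⟨Vale.Agent.P090.net.Sp, inferInstance, Vale.Agent.P090.net.pt,
    ⟨1, one_pos, fun _ _ h => Vale.Agent.P090.net.one_le_d h⟩, Vale.Agent.P090.not_bap⟩

end Vale.Agent.Results.P090.NoBAP
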